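import Vale.Agent.P325.H660.K2.Win
import Vale.Agent.P342.H399.Lists

/-!
# Decoding: common significant groups of disjoint windows
-/

namespace Vale.Agent.P325.K2

open Finset Vale.Agent.Lib.PCP Vale.Agent.P342

namespace H439

/-- averaging over one coordinate -/
theorem sum_update' {I : Type} [Fintype I] [DecidableEq I] {M : ℕ} (b : I)
    (f : (I → Fin M) → ℝ) :
    ∑ p : I → Fin M, ∑ j : Fin M, f (Function.update p b j) = M * ∑ p, f p := by
  have h1 : ∑ p : I → Fin M, ∑ j : Fin M, f (Function.update p b j) =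
      ∑ x : (I → Fin M) × Fin M, f (Function.update x.1 b x.2) := by
    rw [Fintype.sum_prod_type]
  have h2 : (M : ℝ) * ∑ p, f p = ∑ x : (I → Fin M) × Fin M, f x.1 := by
    rw [Fintype.sum_prod_type]
    simp only [Finset.sum_const, Finset.card_univ, Fintype.card_fin, nsmul_eq_mul]
    rw [Finset.mul_sum]
  rw [h1, h2]
  have hinv : Function.Involutive
      (fun x : (I → Fin M) × Fin M => (Function.update x.1 b x.2, x.1 b)) := by
    intro x
    simp
  exact Equiv.sum_comp hinv.toPerm (fun x : (I → Fin M) × Fin M => f x.1)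

/-- few large values of a function with small sum -/
theorem card_large {Θ : Type} [Fintype Θ] [DecidableEq Θ] (f : Θ → ℝ) (hf : ∀ x, 0 ≤ f x)
    (hs : ∑ x, f x ≤ 1) {t : ℝ} (ht : 0 < t) (J : ℕ) (hJ : 1 / t ≤ J) (S : Finset Θ)
    (hS : ∀ x ∈ S, t ≤ f x) : #S ≤ J := by
  have h1 : (#S : ℝ) * t ≤ 1 := by
    calc (#S : ℝ) * t = ∑ _x ∈ S, t := by rw [sum_const, nsmul_eq_mul]
      _ ≤ ∑ x ∈ S, f x := sum_le_sum hS
      _ ≤ ∑ x, f x := sum_le_sum_of_subset_of_nonneg (subset_univ _) fun x _ _ => hf x
      _ ≤ 1 := hs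
  have h2 : (#S : ℝ) ≤ 1 / t := by rwa [le_div_iff₀ ht]
  exact_mod_cast h2.trans hJ

section

variable {n N r L : ℕ} [NeZero n] [NeZero L]

theorem Fz_irr (A : Asg n N r) (e : Win n N → Ed r) (c : Win n N) (a : Fin n → Fin L)
    (y y' : Sd n N r L)
    (h : ∀ i ∈ ({i | i.2.1.1 = c i.1} : Finset (Bt n L (Key n N r))), y i = y' i) :
    Fz A e c a y = Fz A e c a y' := by
  unfold Fz FF
  rw [tbl_congr (prj e) c a y y' fun i hi => h i (Finset.mem_filter.2 ⟨mem_univ _, hi⟩)]

theorem Fz_left (A : Asg n N r) (e e' : Win n N → Ed r) (c : Win n N) (a : Fin n → Fin L)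
    (h : ∀ b, b ≠ c → e b = e' b) (hc : (e c).1 = (e' c).1) : Fz A e c a = Fz A e' c a := by
  have h1 : qst c e = qst c e' := by
    funext b
    unfold qst
    by_cases hb : b = c
    · subst hb
      rw [if_pos rfl, if_pos rfl, hc]
    · rw [if_neg hb, if_neg hb, h b hb]
  have h2 : adr (prj e) c = adr (prj e') c := by
    funext ν k
    unfold adr
    refine Prod.ext rfl ?_
    funext b
    show (if b k = c k ∨ Dj b c then ν b else prj e b (ν b)) =
      if b k = c k ∨ Dj b c then ν b else prj e' b (ν b)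
    by_cases hb : b = c
    · subst hb
      rw [if_pos (Or.inl rfl), if_pos (Or.inl rfl)]
    · unfold prj
      rw [h b hb]
  unfold Fz
  rw [h1, h2]

omit [NeZero n] [NeZero L] in
theorem fgrp_left (e e' : Win n N → Ed r) (c : Win n N) (h : ∀ b, b ≠ c → e b = e' b) :
    (fgrp (prj e) c : Bt n L (Key n N r) → Option (Lab n N r)) = fgrp (prj e') c := by
  funext i
  unfold fgrp
  have : (fun b => if b i.1 = c i.1 ∧ b ≠ c then prj e b (i.2.1.2 b) else i.2.1.2 b) =
      fun b => if b i.1 = c i.1 ∧ b ≠ c then prj e' b (i.2.1.2 b) else i.2.1.2 b := by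
    funext b
    by_cases hb : b = c
    · rw [if_neg (fun h => h.2 hb), if_neg (fun h => h.2 hb)]
    · unfold prj
      rw [h b hb]
  rw [this]

theorem fsig_left (A : Asg n N r) (e e' : Win n N → Ed r) (c : Win n N) (a : Fin n → Fin L)
    (h : ∀ b, b ≠ c → e b = e' b) (hc : (e c).1 = (e' c).1) (g : Lab n N r) :
    fsig A e c a g = fsig A e' c a g := by
  unfold fsig
  rw [Fz_left A e e' c a h hc, fgrp_left e e' c h]

theorem Fz_right (A : Asg n N r) (e e' : Win n N → Ed r) (c c' : Win n N) (hcc : Dj c c')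
    (a : Fin n → Fin L) (h : ∀ b, b ≠ c → e b = e' b) (hc : (e c).2.1 = (e' c).2.1) :
    Fz A e c' a = Fz A e' c' a := by
  have hne : c ≠ c' := fun h => hcc 0 (congrFun h 0)
  have h1 : qst c' e = qst c' e' := by
    funext b
    unfold qst
    by_cases hb : b = c
    · subst hb
      rw [if_neg hne, if_neg hne, if_pos hcc, if_pos hcc, hc]
    · rw [h b hb]
  have h2 : adr (prj e) c' = adr (prj e') c' := by
    funext ν k
    unfold adr
    refine Prod.ext rfl ?_
    funext b
    show (if b k = c' k ∨ Dj b c' then ν b else prj e b (ν b)) =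
      if b k = c' k ∨ Dj b c' then ν b else prj e' b (ν b)
    by_cases hb : b = c
    · subst hb
      rw [if_pos (Or.inr hcc), if_pos (Or.inr hcc)]
    · unfold prj
      rw [h b hb]
  unfold Fz
  rw [h1, h2]

theorem sig_right (hI : IrrThm) (A : Asg n N r) (e e' : Win n N → Ed r) (c c' : Win n N)
    (hcc : Dj c c') (a : Fin n → Fin L) (h : ∀ b, b ≠ c → e b = e' b)
    (hc : (e c).2.1 = (e' c).2.1) (θ : Lab n N r) : sig A e c' a θ = sig A e' c' a θ := by
  unfold sig
  rw [Fz_right A e e' c c' hcc a h hc]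
  refine (hI _ (Fz A e' c' a) {i | i.2.1.1 = c' i.1} (Fz_irr A e' c' a) _ _ ?_).1
  ext i
  simp only [Finset.mem_inter, Finset.mem_filter, mem_univ, true_and]
  refine and_congr_left fun hi => ?_
  have : cgrp (prj e) i = cgrp (prj e') i := by
    funext b
    unfold cgrp
    by_cases hb : b = c
    · subst hb
      have h3 : ¬ b i.1 = i.2.1.1 := by
        rw [hi]
        exact hcc i.1
      rw [if_neg h3, if_neg h3]
    · unfold prj
      rw [h b hb]
  rw [this]

/-- A significant coarse group contains a significant fine group. -/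
theorem exists_fine (hM : MonoThm) (hI : IrrThm) {E τ τ' : ℝ} (hτ : 0 < τ)
    (hS : StructAt E (τ / 4) τ') (A : Asg n N r) (e : Win n N → Ed r) (c : Win n N)
    (a : Fin n → Fin L) (hen : en A e c a ≤ E) (θ : Lab n N r) (hθ : τ / 2 ≤ sig A e c a θ) :
    ∃ g : Lab n N r, coarse (prj e) c g = θ ∧ τ' ≤ fsig A e c a g := by
  classical
  by_contra hcon
  push Not at hcon
  have hsign : IsSign (Fz A e c a) := isSign_FF _ _ _
  let H : Finset (Option (Lab n N r)) := {o | ∃ g, o = some g ∧ coarse (prj e) c g = θ}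
  have h2 := hS (Bt n L (Key n N r)) (Option (Lab n N r)) (fgrp (prj e) c) (Fz A e c a) hsign hen H
    (by
      intro o ho
      obtain ⟨g, rfl, hg⟩ := (Finset.mem_filter.1 ho).2
      exact lt_of_eq_of_lt (by unfold fsig; congr 1) (hcon g hg))
  have h3 := (hI _ (Fz A e c a) {i | i.2.1.1 = c i.1} (Fz_irr A e c a)
    {i | cgrp (prj e) i = θ} {i | fgrp (prj e) c i ∈ H} (by
    ext i
    simp only [Finset.mem_inter, Finset.mem_filter, mem_univ, true_and, H]
    refine and_congr_left fun hi => ?_
    obtain ⟨g, hg⟩ : ∃ g, fgrp (prj e) c i = some g := by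
      unfold fgrp
      rw [if_pos hi]
      exact ⟨_, rfl⟩
    rw [hg, cgrp_of_fgrp (prj e) c i g hg]
    constructor
    · intro h
      exact ⟨g, rfl, h⟩
    · rintro ⟨g', h4, h5⟩
      rw [Option.some.inj h4]
      exact h5)).1
  have h4 := (hM _ (Fz A e c a) {i | fgrp (prj e) c i ∈ H} {i | fgrp (prj e) c i ∈ H}
    (Finset.Subset.refl _)).2.1
  unfold sig at hθ
  rw [h3] at hθ
  have h5 := (hθ.trans h4).trans h2
  linarith

end

theorem decodeThm (hSum : SumThm) (hI : IrrThm) (hM : MonoThm) : DecodeThm := by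
  classical
  intro n N r L _ _ _ _ E τ τ' η J hτ hτ' hS hJ' hJ G hG hs A c c' hcc a a'
  have hN : 0 < G.length := List.length_pos_iff.2 hG
  have hNR : (0 : ℝ) < G.length := by exact_mod_cast hN
  -- the lists
  let Lst : (Win n N → Ed r) → Finset (Fin r) := fun e =>
    (univ.filter fun g : Lab n N r => τ' ≤ fsig A e c a g).image fun g => g c
  let Rst : (Win n N → Ed r) → Finset (Fin r) := fun e =>
    (univ.filter fun g : Lab n N r => τ / 2 ≤ sig A e c' a' g).image fun g => g c
  have hL : ∀ e, (Lst e).card ≤ J := by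
    intro e
    refine Finset.card_image_le.trans ?_
    have h1 := hSum (Bt n L (Key n N r)) (Option (Lab n N r)) (Fz A e c a) (isSign_FF _ _ _)
      (fgrp (prj e) c)
    rw [Fintype.sum_option] at h1
    have h2 : ∑ g : Lab n N r, fsig A e c a g ≤ 1 := by
      have h3 := (hM _ (Fz A e c a) ({i | fgrp (prj e) c i = none})
        ({i | fgrp (prj e) c i = none}) (Finset.Subset.refl _)).2.2
      unfold fsig
      linarith
    exact card_large (fun g => fsig A e c a g) (fun g => (hM _ _ _ _ (Finset.Subset.refl _)).2.2)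
      h2 hτ' J hJ' _ fun x hx => (Finset.mem_filter.1 hx).2
  have hR : ∀ e, (Rst e).card ≤ J := by
    intro e
    refine Finset.card_image_le.trans ?_
    have h1 := hSum (Bt n L (Key n N r)) (Lab n N r) (Fz A e c' a') (isSign_FF _ _ _)
      (cgrp (prj e))
    refine card_large (fun g => sig A e c' a' g)
      (fun g => (hM _ _ _ _ (Finset.Subset.refl _)).2.2) h1 (half_pos hτ) J ?_ _
      fun x hx => (Finset.mem_filter.1 hx).2
    rw [one_div_div]
    exact hJ
  have hL' : ∀ e e' : Win n N → Ed r, (∀ b, b ≠ c → e b = e' b) → (e c).1 = (e' c).1 →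
      Lst e = Lst e' := by
    intro e e' h hc
    simp only [Lst, fsig_left A e e' c a h hc]
  have hR' : ∀ e e' : Win n N → Ed r, (∀ b, b ≠ c → e b = e' b) → (e c).2.1 = (e' c).2.1 →
      Rst e = Rst e' := by
    intro e e' h hc
    simp only [Rst, sig_right hI A e e' c c' hcc a' h hc]
  -- bad tuples
  let bad : (Win n N → Ed r) → Prop := fun e => ∃ s ∈ Lst e, ∃ u ∈ Rst e, (e c).2.2 s = u
  have hbad : ∀ p : Win n N → Fin G.length, (en A (eo G p) c a ≤ E ∧
      ∃ θ, τ / 2 ≤ sig A (eo G p) c a θ ∧ τ / 2 ≤ sig A (eo G p) c' a' θ) → bad (eo G p) := by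
    rintro p ⟨hen, θ, h1, h2⟩
    obtain ⟨g, hg, hg'⟩ := exists_fine hM hI hτ hS A (eo G p) c a hen θ h1
    refine ⟨g c, Finset.mem_image.2 ⟨g, Finset.mem_filter.2 ⟨mem_univ _, hg'⟩, rfl⟩, θ c,
      Finset.mem_image.2 ⟨θ, Finset.mem_filter.2 ⟨mem_univ _, h2⟩, rfl⟩, ?_⟩
    rw [← hg]
    unfold coarse
    rw [if_pos rfl]
    rfl
  have hup : ∀ (p : Win n N → Fin G.length) j,
      eo G (Function.update p c j) = Function.update (eo G p) c (G.get j) := by
    intro p j
    funext b'
    by_cases h : b' = c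
    · subst h
      unfold eo
      rw [Function.update_self, Function.update_self]
    · unfold eo
      rw [Function.update_of_ne h, Function.update_of_ne h]
  let f : (Win n N → Fin G.length) → ℝ := fun p => if bad (eo G p) then 1 else 0
  have h1 : (G.length : ℝ) * ∑ p, f p ≤
      ∑ _p : Win n N → Fin G.length, (J : ℝ) ^ 2 * (η * G.length) := by
    rw [← sum_update' c]
    refine Finset.sum_le_sum fun p _ => ?_
    have h2 := H399.block hs (fun x => Lst (Function.update (eo G p) c (x, 0, fun s => s)))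
      (fun y => Rst (Function.update (eo G p) c (0, y, fun s => s))) (fun x => hL _)
      (fun y => hR _) (fun d => decide (bad (Function.update (eo G p) c d))) (by
        intro d hd
        obtain ⟨s, hs1, u, hu1, hsu⟩ := of_decide_eq_true hd
        refine ⟨s, ?_, u, ?_, ?_⟩
        · rw [hL' (Function.update (eo G p) c (d.1, 0, fun s => s)) (Function.update (eo G p) c d)]
          · exact hs1
          · intro b' hb'
            rw [Function.update_of_ne hb', Function.update_of_ne hb']
          · rw [Function.update_self, Function.update_self]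
        · rw [hR' (Function.update (eo G p) c (0, d.2.1, fun s => s))
            (Function.update (eo G p) c d)]
          · exact hu1
          · intro b' hb'
            rw [Function.update_of_ne hb', Function.update_of_ne hb']
          · rw [Function.update_self, Function.update_self]
        · rw [Function.update_self] at hsu
          exact hsu)
    refine le_trans (le_of_eq ?_) h2
    rw [← H399.sum_get_countP]
    push_cast
    refine Finset.sum_congr rfl fun j _ => ?_
    simp only [f, hup, decide_eq_true_eq]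
  rw [Finset.sum_const, Finset.card_univ, nsmul_eq_mul] at h1
  have hcard : (0 : ℝ) < Fintype.card (Win n N → Fin G.length) := by
    have : Nonempty (Win n N → Fin G.length) := ⟨fun _ => ⟨0, hN⟩⟩
    exact_mod_cast Fintype.card_pos
  have h2 : ∑ p, f p ≤ (Fintype.card (Win n N → Fin G.length) : ℝ) * ((J : ℝ) ^ 2 * η) := by
    have h3 : (G.length : ℝ) * ∑ p, f p ≤ (G.length : ℝ) *
        ((Fintype.card (Win n N → Fin G.length) : ℝ) * ((J : ℝ) ^ 2 * η)) := by
      refine h1.trans (le_of_eq ?_)
      ring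
    exact le_of_mul_le_mul_left h3 hNR
  calc Pr (fun p : Win n N → Fin G.length => en A (eo G p) c a ≤ E ∧
        ∃ θ, τ / 2 ≤ sig A (eo G p) c a θ ∧ τ / 2 ≤ sig A (eo G p) c' a' θ)
      ≤ Pr (fun p : Win n N → Fin G.length => bad (eo G p)) := Pr_mono hbad
    _ = (∑ p, f p) / Fintype.card (Win n N → Fin G.length) := by
        unfold Pr Ex
        refine congrArg (· / _) (Finset.sum_congr rfl fun p _ => ?_)
        by_cases h : bad (eo G p)
        · simp only [f]
          rw [if_pos h, if_pos h]
        · simp only [f]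
          rw [if_neg h, if_neg h]
    _ ≤ (J : ℝ) ^ 2 * η := by
        rw [div_le_iff₀ hcard, mul_comm]
        exact h2

end H439

end Vale.Agent.P325.K2

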